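import Vale.Agent.P095.NMain

namespace Vale.Agent.Results.P095.AllA

open Vale.Agent.P101 Vale.Agent.P095

/-- Actions of countable locally finite groups on separable `Z`-stable algebras, with or without
unit, are equivariantly `Z`-stable.  `T` is the tensor product, an ideal of the unital algebra `W`
(for example its multiplier algebra). -/
theorem result (G : Type) [Group G] [Countable G]
    (hG : ∀ V : Finset G, (Subgroup.closure (V : Set G) : Set G).Finite)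
    (A : Type) [NonUnitalCStarAlgebra A] [Nontrivial A] [TopologicalSpace.SeparableSpace A]
    (Z : Type) [CStarAlgebra Z] [TopologicalSpace.SeparableSpace Z] (hZ : DropLimit Z)
    (hf : HalfFlipZero Z) (hs : SelfCen Z) (hn : IsEmpty (Z →⋆ₐ[ℂ] ℂ))
    (T : Type) [NonUnitalCStarAlgebra T] (W : Type) [CStarAlgebra W]
    (κ : T →⋆ₙₐ[ℂ] W) (hκ : Function.Injective κ) (hid : ∀ w t, ∃ t', κ t * w = κ t')
    (ι : A →⋆ₙₐ[ℂ] W) (j : Z →⋆ₐ[ℂ] W) (hι : Function.Injective ι)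
    (hc : ∀ a d, Commute (ι a) (j d))
    (hT : Set.range κ = closure (Submodule.span ℂ {w | ∃ a d, w = ι a * j d} : Set W))
    (hA : Nonempty (A ≃⋆ₐ[ℂ] T)) (α : G →* (A ≃⋆ₐ[ℂ] A)) (β : G →* (W ≃⋆ₐ[ℂ] W))
    (h1 : ∀ g a, β g (ι a) = ι (α g a)) (h2 : ∀ g d, β g (j d) = j d) :
    ∃ (Φ : A ≃⋆ₐ[ℂ] T) (u : G → W), (∀ g, u g ∈ unitary W) ∧ (∀ g h, u (g * h) = u g * β g (u h)) ∧
      ∀ g a, κ (Φ (α g a)) = u g * β g (κ (Φ a)) * star (u g) :=
  mainN hZ hf hs hn ι j κ hι hκ hc hT hid hA hG α β h1 h2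

end Vale.Agent.Results.P095.AllA
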