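import Vale.Agent.P095H.PartC

namespace Vale.Agent.Results.P095.Char

open Vale.Agent.P101 Vale.Agent.P095H

/-- Equivariant character criterion, stable under extensions that are locally finite modulo inner
automorphisms. -/
theorem result (G : Type) [Group G] [Countable G]
    (A : Type) [CStarAlgebra A] [Nontrivial A] [TopologicalSpace.SeparableSpace A]
    (ω : Ultrafilter ℕ) (hω : (ω : Filter ℕ) ≤ Filter.cofinite)
    (Z : Type) [CStarAlgebra Z] [TopologicalSpace.SeparableSpace Z] (hZ : DropLimit Z)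
    (hf : HalfFlip Z) (T : Type) [CStarAlgebra T] (ι : A →⋆ₐ[ℂ] T) (j : Z →⋆ₐ[ℂ] T)
    (hι : Function.Injective ι) (hc : ∀ a d, Commute (ι a) (j d))
    (hd : Dense (StarAlgebra.adjoin ℂ (Set.range ι ∪ Set.range j) : Set T))
    (α : G →* Aut A) (β : G →* Aut T)
    (h1 : ∀ g a, β g (ι a) = ι (α g a)) (h2 : ∀ g d, β g (j d) = j d)
    (hG : ∀ W : Finset G, ∃ (N : Subgroup G) (S : Finset G),
      IsEmpty (FixCentral ω α N →⋆ₐ[ℂ] ℂ) ∧
      ∀ g ∈ Subgroup.closure (W : Set G), (∀ n ∈ N, g * n * g⁻¹ ∈ N) ∧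
        ∃ t ∈ S, ∃ n ∈ N, ∃ u ∈ unitary A, ∀ a, α g a = u * α (t * n) a * star u) :
    CocycleConj α β :=
  main_char hω hZ hf ι j hι hc hd α β h1 h2 hG

end Vale.Agent.Results.P095.Char
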