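import Vale.Agent.P095H.PartN4
import Vale.Agent.P095A.Main
import Vale.Agent.P095G.PartNORM4

namespace Vale.Agent.Results.P095.ZAGam

open Vale.Agent.P101 Vale.Agent.P095 Vale.Agent.P095H

/-- Every action of a countable amenable group on a separable `Z`-stable algebra, with or without
unit, has equivariant property Gamma in the central sequence algebra modulo the annihilator. -/
theorem result (G : Type) [Group G] [Countable G] (hG : Vale.Agent.P184.IsAmenable G)
    (A : Type) [NonUnitalCStarAlgebra A] [TopologicalSpace.SeparableSpace A]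
    (Z : Type) [CStarAlgebra Z] [TopologicalSpace.SeparableSpace Z] (hs : SelfCen Z)
    (hn : IsEmpty (Z →⋆ₐ[ℂ] ℂ)) (T : Type) [NonUnitalCStarAlgebra T] (W : Type) [CStarAlgebra W]
    (κ : T →⋆ₙₐ[ℂ] W) (hκ : Function.Injective κ) (hid : ∀ w t, ∃ t', κ t * w = κ t')
    (ι : A →⋆ₙₐ[ℂ] W) (j : Z →⋆ₐ[ℂ] W) (hc : ∀ a d, Commute (ι a) (j d))
    (hT : Set.range κ = closure (Submodule.span ℂ {w | ∃ a d, w = ι a * j d} : Set W))
    (hA : Nonempty (A ≃⋆ₐ[ℂ] T)) (α : G →* (A ≃⋆ₐ[ℂ] A))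
    (ω : Ultrafilter ℕ) (hω : (ω : Filter ℕ) ≤ Filter.cofinite)
    (n : ℕ) (n0 : 0 < n) (K : Finset G) (ε : ℝ) (hε : 0 < ε) :
    GammaF ω (Set.range (Unitization.inr : A → Unitization ℂ A)) (fun g => uext (α g)) n K ε :=
  gammaF α (mainN3 hω hs hn ι j κ hκ hc hT hid hA
    (fun _ _ _ h1 h2 h3 => P095G.gamN4 hG (P095A.gam_all hG h1 h2 h3)) α n n0 K ε hε)

end Vale.Agent.Results.P095.ZAGam
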