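import Vale.Agent.P095G.Main

namespace Vale.Agent.Results.P095.ZGamma

open Vale.Agent.P095 Vale.Agent.P095G

/-- Every action of a countable elementary amenable group on a unital separable `Z`-stable
algebra has equivariant uniform property Gamma. -/
theorem result (G : Type) [Group G] [Countable G] (hG : EA G)
    (A : Type) [CStarAlgebra A] [Nontrivial A] [TopologicalSpace.SeparableSpace A]
    (Z : Type) [CStarAlgebra Z] [TopologicalSpace.SeparableSpace Z] (hs : SelfCentral Z)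
    (hz : IsEmpty (Z →⋆ₐ[ℂ] ℂ)) (T : Type) [CStarAlgebra T] (ι : A →⋆ₐ[ℂ] T) (j : Z →⋆ₐ[ℂ] T)
    (hc : ∀ a d, Commute (ι a) (j d))
    (hd : Dense (StarAlgebra.adjoin ℂ (Set.range ι ∪ Set.range j) : Set T))
    (hA : Nonempty (A ≃⋆ₐ[ℂ] T)) (α : G →* (A ≃⋆ₐ[ℂ] A))
    (n : ℕ) (hn : 0 < n) (X : Finset A) (K : Finset G) (ε : ℝ) (hε : 0 < ε) :
    ∃ e : Fin n → A, (∀ i, IsSelfAdjoint (e i) ∧ spectrum ℝ (e i) ⊆ Set.Icc 0 1) ∧
      (∀ i j, i ≠ j → ‖e i * e j‖ < ε) ∧ (∀ i, ∀ a ∈ X, ‖e i * a - a * e i‖ < ε) ∧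
      ∀ τ : A →ₗ[ℂ] ℂ, Tr τ → ∀ i, (∀ g ∈ K, ‖τ ((α g (e i) - e i) ^ 2)‖ < ε) ∧
        ∀ a ∈ X, ‖τ (a * e i) - τ a / n‖ < ε :=
  hA.elim fun φ => main hs hz ι j hc hd φ hG α n hn X K ε hε

end Vale.Agent.Results.P095.ZGamma
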