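import Vale.Agent.P095H.PartA

namespace Vale.Agent.Results.P095.ZLocFin

open Vale.Agent.P101 Vale.Agent.P095H

/-- Actions of countable locally finite groups on unital separable `Z`-stable algebras are
equivariantly `Z`-stable. -/
theorem result (G : Type) [Group G] [Countable G]
    (hG : ∀ s : Finset G, Finite (Subgroup.closure (s : Set G)))
    (A : Type) [CStarAlgebra A] [Nontrivial A] [TopologicalSpace.SeparableSpace A]
    (Z : Type) [CStarAlgebra Z] [TopologicalSpace.SeparableSpace Z] [IsSimpleRing Z]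
    (hinf : ¬ FiniteDimensional ℂ Z) (hZ : DropLimit Z) (hf : HalfFlip Z) (hcc : CentralCopies Z)
    (T : Type) [CStarAlgebra T] (ι : A →⋆ₐ[ℂ] T) (j : Z →⋆ₐ[ℂ] T)
    (hι : Function.Injective ι) (hc : ∀ a d, Commute (ι a) (j d))
    (hd : Dense (StarAlgebra.adjoin ℂ (Set.range ι ∪ Set.range j) : Set T))
    (hA : Nonempty (A ≃⋆ₐ[ℂ] T)) (α : G →* Aut A) (β : G →* Aut T)
    (h1 : ∀ g a, β g (ι a) = ι (α g a)) (h2 : ∀ g d, β g (j d) = j d) : CocycleConj α β :=
  hA.elim fun e => main hG hinf hZ hf hcc ι j hι hc hd e α β h1 h2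

end Vale.Agent.Results.P095.ZLocFin
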